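import Mathlib

/-!
Holomorphic vector bundles on `ℙ¹ × ℙ¹`, ampleness, Hermitian metrics and Griffiths positivity.
-/

namespace Vale.Agent.P296

open Matrix
open scoped ComplexOrder ContDiff

/-- The complex projective line. -/
abbrev P1 : Type := Projectivization ℂ (Fin 2 → ℂ)

/-- Homogeneous coordinates `(1, z)` (for `a = 0`) or `(z, 1)` (for `a = 1`). -/
def hom (a : Fin 2) (z : ℂ) : Fin 2 → ℂ := fun i => if i = a then 1 else z

theorem hom_ne_zero (a : Fin 2) (z : ℂ) : hom a z ≠ 0 := fun h => by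
  simpa [hom] using congrFun h a

/-- The four standard affine charts `ℂ² → ℙ¹ × ℙ¹`. -/
noncomputable def chart (α : Fin 2 × Fin 2) (p : ℂ × ℂ) : P1 × P1 :=
  (Projectivization.mk ℂ (hom α.1 p.1) (hom_ne_zero _ _),
    Projectivization.mk ℂ (hom α.2 p.2) (hom_ne_zero _ _))

/-- A holomorphic vector bundle of rank `r` on `ℙ¹ × ℙ¹`, given by transition matrices: a vector
with coordinates `v` in the frame over chart `β` has coordinates `g α β p *ᵥ v` in the frame over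
chart `α`, at the point with `α`-coordinate `p`. -/
structure Bundle (r : ℕ) where
  g : Fin 2 × Fin 2 → Fin 2 × Fin 2 → ℂ × ℂ → Matrix (Fin r) (Fin r) ℂ
  holo : ∀ α β i j,
    DifferentiableOn ℂ (fun p => g α β p i j) {p | chart α p ∈ Set.range (chart β)}
  refl : ∀ α p, g α α p = 1
  cocycle : ∀ α β γ p q, chart α p = chart β q → chart α p ∈ Set.range (chart γ) →
    g α β p * g β γ q = g α γ p

/-- A global section of `𝒪_{ℙ(E)}(k)`: a holomorphic function on the total space of the dual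
bundle `E^*`, homogeneous of degree `k` along the fibres. -/
structure Sec {r : ℕ} (E : Bundle r) (k : ℕ) where
  σ : Fin 2 × Fin 2 → (ℂ × ℂ) × (Fin r → ℂ) → ℂ
  holo : ∀ α, Differentiable ℂ (σ α)
  homog : ∀ α p η (c : ℂ), σ α (p, c • η) = c ^ k * σ α (p, η)
  compat : ∀ α β p q η, chart α p = chart β q → σ β (q, η ᵥ* E.g α β p) = σ α (p, η)

/-- `E` is ample: for some `k ≥ 1`, finitely many sections of `𝒪_{ℙ(E)}(k)` have no common zero
and define an injective immersion (an embedding) of `ℙ(E)` into projective space. -/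
def Bundle.Ample {r : ℕ} (E : Bundle r) : Prop :=
  ∃ (k N : ℕ) (s : Fin N → Sec E k), 0 < k ∧
    (∀ α p η, η ≠ 0 → ∃ n, (s n).σ α (p, η) ≠ 0) ∧
    (∀ α β p q η η' (c : ℂ), η ≠ 0 → η' ≠ 0 →
      (∀ n, (s n).σ β (q, η') = c * (s n).σ α (p, η)) →
      chart α p = chart β q ∧ ∃ t : ℂ, η' = t • (η ᵥ* E.g α β p)) ∧
    (∀ α p η, η ≠ 0 →
      Function.Injective (fderiv ℂ (fun x n => (s n).σ α x) (p, η)))

/-- A smooth Hermitian metric on `E`: `⟨u, v⟩ = v^* (h α p) u` in the frame over chart `α`. -/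
structure Metric {r : ℕ} (E : Bundle r) where
  h : Fin 2 × Fin 2 → ℂ × ℂ → Matrix (Fin r) (Fin r) ℂ
  smooth : ∀ α i j, ContDiff ℝ ∞ (fun p => h α p i j)
  pos : ∀ α p, (h α p).PosDef
  compat : ∀ α β p q, chart α p = chart β q → h β q = (E.g α β p)ᴴ * h α p * E.g α β p

/-- The Wirtinger derivative `∂_ξ = ∑ ξ_j ∂/∂z_j` of a matrix function, entrywise. -/
noncomputable def dz {r : ℕ} (ξ : ℂ × ℂ) (F : ℂ × ℂ → Matrix (Fin r) (Fin r) ℂ) (p : ℂ × ℂ) :
    Matrix (Fin r) (Fin r) ℂ :=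
  Matrix.of fun i j => (fderiv ℝ (fun q => F q i j) p ξ -
    Complex.I * fderiv ℝ (fun q => F q i j) p (Complex.I • ξ)) / 2

/-- The conjugate Wirtinger derivative `∑ conj(ξ_j) ∂/∂conj(z_j)`, entrywise. -/
noncomputable def dzbar {r : ℕ} (ξ : ℂ × ℂ) (F : ℂ × ℂ → Matrix (Fin r) (Fin r) ℂ) (p : ℂ × ℂ) :
    Matrix (Fin r) (Fin r) ℂ :=
  Matrix.of fun i j => (fderiv ℝ (fun q => F q i j) p ξ +
    Complex.I * fderiv ℝ (fun q => F q i j) p (Complex.I • ξ)) / 2

/-- The Chern curvature endomorphism `Θ(ξ, conj ξ) = -∂bar_ξ (h⁻¹ ∂_ξ h)` in a holomorphic frame. -/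
noncomputable def curv {r : ℕ} (h : ℂ × ℂ → Matrix (Fin r) (Fin r) ℂ) (p ξ : ℂ × ℂ) :
    Matrix (Fin r) (Fin r) ℂ :=
  -dzbar ξ (fun q => (h q)⁻¹ * dz ξ h q) p

/-- The Griffiths curvature form `⟨Θ(ξ, conj ξ) v, v⟩`. -/
noncomputable def Metric.griffithsForm {r : ℕ} {E : Bundle r} (H : Metric E) (α : Fin 2 × Fin 2)
    (p ξ : ℂ × ℂ) (v : Fin r → ℂ) : ℝ :=
  (star v ⬝ᵥ (H.h α p *ᵥ (curv (H.h α) p ξ *ᵥ v))).re

/-- Strict Griffiths positivity. -/
def Metric.GriffithsPos {r : ℕ} {E : Bundle r} (H : Metric E) : Prop :=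
  ∀ α p ξ v, ξ ≠ 0 → v ≠ 0 → 0 < H.griffithsForm α p ξ v

/-- Griffiths semipositivity. -/
def Metric.GriffithsSemipos {r : ℕ} {E : Bundle r} (H : Metric E) : Prop :=
  ∀ α p ξ v, 0 ≤ H.griffithsForm α p ξ v

end Vale.Agent.P296
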