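import Mathlib

/-!
The explicit bihomogeneous forms and the identities between them.
-/

namespace Vale.Agent.P296

open Finset

/-- Coefficient table. -/
def tab (L : List (List ℤ)) (i j : ℕ) : ℤ := (L.getD i []).getD j 0

/-- A bihomogeneous form of bidegree `(p, q)`. -/
def bi {A : Type*} [CommRing A] (p q : ℕ) (c : ℕ → ℕ → ℤ) (X0 X1 Y0 Y1 : A) : A :=
  ∑ i ∈ range (p + 1), ∑ j ∈ range (q + 1),
    (c i j : A) * (X0 ^ (p - i) * X1 ^ i) * (Y0 ^ (q - j) * Y1 ^ j)

/-- Coefficients. -/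
def cZ : ℕ → ℕ → ℤ := tab
  [[-216, -72, 192, -279],
   [-72, 726, -186, 32],
   [192, -186, 121, -2],
   [-279, 32, -2, -1]]

/-- Coefficients. -/
def cS0 : ℕ → ℕ → ℤ := tab
  [[-822609, 18906048, 316386],
   [5185944, -5370543, -1144476],
   [-8387010, -141030, 224790],
   [1267155, 574590, -18870],
   [40290, -64755, -3160],
   [-18696, 1912, 334],
   [551, 28, -4]]

/-- Coefficients. -/
def cS1 : ℕ → ℕ → ℤ := tab
  [[-6718464, 7838208, 25707456],
   [93498624, 89206272, -145380096],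
   [-147432960, -503534880, 52215840],
   [-146733120, 744668640, 273705480],
   [291327840, -30462480, -301932360],
   [-247206816, -193339548, 31115664],
   [11389896, 113436288, -822609]]

/-- Coefficients. -/
def cK : ℕ → ℕ → ℤ := tab
  [[-31104, 46656, 75816, 56376, -11664, -43929, -68544, -1134],
   [443232, 145152, -169128, -195858, -137538, 28332, 14877, 3972],
   [-857952, -535572, -169992, 137538, 32643, 4698, -672, -342],
   [40824, 411264, 43929, 1944, -1566, -351, -36, 4]]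

/-- Coefficients. -/
def cB00 : ℕ → ℕ → ℤ := tab
  [[-511851327309, 78865769070, 3383721810, -1211604885, 16566480, 624834],
   [78865769070, 47257619400, -8729718300, 161351550, 70150725, -2156820],
   [3383721810, -8729718300, -1062313650, 245730150, -13930200, 72690],
   [-1211604885, 161351550, 245730150, -13937775, -499800, 23260],
   [16566480, 70150725, -13930200, -499800, 104900, -1480],
   [624834, -2156820, 72690, 23260, -1480, 16]]

/-- Coefficients. -/
def cB01 : ℕ → ℕ → ℤ := tab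
  [[25586430336, -199683247680, 440458038360, -83915802360, -276044656320, -398646621711],
   [-952660349280, 3228298934400, -1638315379800, -737499082950, 212537507850, -46007442720],
   [9075683633760, -3594511428300, 482044980600, -208263380850, -122916513825, -2330994510],
   [-16113831483960, -6105824647200, 1417698310275, 80340830100, -45508760550, 2039157585],
   [500376502080, 8368587867600, -1017637441200, -99847539675, 14945828400, -154076580],
   [12916142064, 83396083680, -447606430110, 42017053860, -735077430, 3290436]]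

/-- Coefficients. -/
def cB10 : ℕ → ℕ → ℤ := tab
  [[25586430336, -952660349280, 9075683633760, -16113831483960, 500376502080, 12916142064],
   [-199683247680, 3228298934400, -3594511428300, -6105824647200, 8368587867600, 83396083680],
   [440458038360, -1638315379800, 482044980600, 1417698310275, -1017637441200, -447606430110],
   [-83915802360, -737499082950, -208263380850, 80340830100, -99847539675, 42017053860],
   [-276044656320, 212537507850, -122916513825, -45508760550, 14945828400, -735077430],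
   [-398646621711, -46007442720, -2330994510, 2039157585, -154076580, 3290436]]

/-- Coefficients. -/
def cB11 : ℕ → ℕ → ℤ := tab
  [[208971104256, -3221637857280, 8438659522560, 4395286333440, -21735776286720, 1049481183744],
   [-3221637857280, 38057411174400, -30220994764800, -140384320819200, 117826280121600, 4637554145280],
   [8438659522560, -30220994764800, -140460659366400, 412732291622400, 45168107500800, -56528637514560],
   [4395286333440, -140384320819200, 412732291622400, -297379833926400, -407293737004800, 26311820794560],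
   [-21735776286720, 117826280121600, 45168107500800, -407293737004800, 367475248454400, 102210036714720],
   [1049481183744, 4637554145280, -56528637514560, 26311820794560, 102210036714720, -110559886698744]]

/-- The normalising constant. -/
def nn : ℤ := 10546875

section

variable {A : Type*} [CommRing A]

theorem map_bi {A' : Type*} [CommRing A'] (f : A →+* A') (p q : ℕ) (c : ℕ → ℕ → ℤ)
    (X0 X1 Y0 Y1 : A) : f (bi p q c X0 X1 Y0 Y1) = bi p q c (f X0) (f X1) (f Y0) (f Y1) := by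
  simp [bi]

theorem bi_smul (p q : ℕ) (c : ℕ → ℕ → ℤ) (s t X0 X1 Y0 Y1 : A) :
    bi p q c (s * X0) (s * X1) (t * Y0) (t * Y1) = s ^ p * t ^ q * bi p q c X0 X1 Y0 Y1 := by
  unfold bi
  rw [Finset.mul_sum]
  refine Finset.sum_congr rfl fun i hi => ?_
  rw [Finset.mul_sum]
  refine Finset.sum_congr rfl fun j hj => ?_
  have hi' : s ^ p = s ^ (p - i) * s ^ i := by
    rw [← pow_add]; congr 1; have := mem_range.mp hi; omega
  have hj' : t ^ q = t ^ (q - j) * t ^ j := by
    rw [← pow_add]; congr 1; have := mem_range.mp hj; omega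
  rw [hi', hj']
  ring

theorem idK (X0 X1 Y0 Y1 : A) :
    Y1 ^ 8 * bi 6 2 cS0 X0 X1 Y0 Y1 - Y0 ^ 8 * bi 6 2 cS1 X0 X1 Y0 Y1 =
      bi 3 3 cZ X0 X1 Y0 Y1 * bi 3 7 cK X0 X1 Y0 Y1 := by
  simp only [bi, cS0, cS1, cZ, cK, tab, sum_range_succ, sum_range_zero, List.getD_cons_zero,
    List.getD_cons_succ]
  push_cast
  ring

theorem idB00 (X0 X1 Y0 Y1 : A) :
    bi 6 2 cS0 X0 X1 Y0 Y1 * bi 6 2 cS0 Y0 Y1 X0 X1 +
      bi 3 3 cZ X0 X1 Y0 Y1 * bi 5 5 cB00 X0 X1 Y0 Y1 = (nn : A) ^ 2 * (X0 ^ 8 * Y0 ^ 8) := by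
  simp only [bi, cS0, cS1, cZ, cB00, nn, tab, sum_range_succ, sum_range_zero,
    List.getD_cons_zero, List.getD_cons_succ]
  push_cast
  ring

theorem idB01 (X0 X1 Y0 Y1 : A) :
    bi 6 2 cS1 X0 X1 Y0 Y1 * bi 6 2 cS0 Y0 Y1 X0 X1 +
      bi 3 3 cZ X0 X1 Y0 Y1 * bi 5 5 cB01 X0 X1 Y0 Y1 = (nn : A) ^ 2 * (X0 ^ 8 * Y1 ^ 8) := by
  simp only [bi, cS0, cS1, cZ, cB01, nn, tab, sum_range_succ, sum_range_zero,
    List.getD_cons_zero, List.getD_cons_succ]
  push_cast
  ring

theorem idB10 (X0 X1 Y0 Y1 : A) :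
    bi 6 2 cS0 X0 X1 Y0 Y1 * bi 6 2 cS1 Y0 Y1 X0 X1 +
      bi 3 3 cZ X0 X1 Y0 Y1 * bi 5 5 cB10 X0 X1 Y0 Y1 = (nn : A) ^ 2 * (X1 ^ 8 * Y0 ^ 8) := by
  simp only [bi, cS0, cS1, cZ, cB10, nn, tab, sum_range_succ, sum_range_zero,
    List.getD_cons_zero, List.getD_cons_succ]
  push_cast
  ring

theorem idB11 (X0 X1 Y0 Y1 : A) :
    bi 6 2 cS1 X0 X1 Y0 Y1 * bi 6 2 cS1 Y0 Y1 X0 X1 +
      bi 3 3 cZ X0 X1 Y0 Y1 * bi 5 5 cB11 X0 X1 Y0 Y1 = (nn : A) ^ 2 * (X1 ^ 8 * Y1 ^ 8) := by
  simp only [bi, cS0, cS1, cZ, cB11, nn, tab, sum_range_succ, sum_range_zero,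
    List.getD_cons_zero, List.getD_cons_succ]
  push_cast
  ring

theorem zeta_symm (X0 X1 Y0 Y1 : A) : bi 3 3 cZ X0 X1 Y0 Y1 = bi 3 3 cZ Y0 Y1 X0 X1 := by
  simp only [bi, cZ, tab, sum_range_succ, sum_range_zero, List.getD_cons_zero,
    List.getD_cons_succ]
  push_cast
  ring

theorem zeta_one (x : A) : bi 3 3 cZ 1 x 1 1 = -250 * x ^ 3 + 125 * x ^ 2 + 500 * x - 375 := by
  simp only [bi, cZ, tab, sum_range_succ, sum_range_zero, List.getD_cons_zero,
    List.getD_cons_succ]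
  push_cast
  ring

theorem zeta_Z1 (x : A) : bi 3 3 cZ 1 x (x + 9) (-9 * x - 6) = 0 := by
  simp only [bi, cZ, tab, sum_range_succ, sum_range_zero, List.getD_cons_zero,
    List.getD_cons_succ]
  push_cast
  ring

theorem S0_Z1 (x : A) : bi 6 2 cS0 1 x (x + 9) (-9 * x - 6) = -25 * (x + 9) ^ 8 := by
  simp only [bi, cS0, tab, sum_range_succ, sum_range_zero, List.getD_cons_zero,
    List.getD_cons_succ]
  push_cast
  ring

theorem zeta_Z2 (x c : A) (hc : c ^ 2 - 7 * c + 31 = 0) :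
    bi 3 3 cZ 1 x (x - c) ((7 - c) * x - 6) = 0 := by
  simp only [bi, cZ, tab, sum_range_succ, sum_range_zero, List.getD_cons_zero,
    List.getD_cons_succ]
  push_cast
  linear_combination ((1944) * c ^ 0 * x ^ 0 + (-6804) * c ^ 0 * x ^ 1 + (8010) * c ^ 0 * x ^ 2 + (-3255) * c ^
      0 * x ^ 3 + (-40) * c ^ 0 * x ^ 4 + (161) * c ^ 0 * x ^ 5 + (-16) * c ^ 0 * x ^ 6 + (216)
      * c ^ 1 * x ^ 0 + (144) * c ^ 1 * x ^ 1 + (-1110) * c ^ 1 * x ^ 2 + (930) * c ^ 1 * x ^ 3
      + (-185) * c ^ 1 * x ^ 4 + (4) * c ^ 1 * x ^ 5 + (1) * c ^ 1 * x ^ 6) * hc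

theorem S0_Z2 (x c : A) (hc : c ^ 2 - 7 * c + 31 = 0) :
    bi 6 2 cS0 1 x (x - c) ((7 - c) * x - 6) = 675 * (x - c) ^ 8 := by
  simp only [bi, cS0, tab, sum_range_succ, sum_range_zero, List.getD_cons_zero,
    List.getD_cons_succ]
  push_cast
  linear_combination ((367416) * c ^ 0 * x ^ 0 + (-5845608) * c ^ 0 * x ^ 1 + (9144333) * c ^ 0 * x ^ 2 +
      (-3458151) * c ^ 0 * x ^ 3 + (-10830) * c ^ 0 * x ^ 4 + (162279) * c ^ 0 * x ^ 5 +
      (-19597) * c ^ 0 * x ^ 6 + (362) * c ^ 0 * x ^ 7 + (-4) * c ^ 0 * x ^ 8 + (3742200) * c ^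
      1 * x ^ 0 + (-6453000) * c ^ 1 * x ^ 1 + (1719900) * c ^ 1 * x ^ 2 + (680400) * c ^ 1 * x
      ^ 3 + (-330750) * c ^ 1 * x ^ 4 + (37800) * c ^ 1 * x ^ 5 + (806625) * c ^ 2 * x ^ 0 +
      (-491400) * c ^ 2 * x ^ 1 + (-340200) * c ^ 2 * x ^ 2 + (264600) * c ^ 2 * x ^ 3 +
      (-47250) * c ^ 2 * x ^ 4 + (61425) * c ^ 3 * x ^ 0 + (97200) * c ^ 3 * x ^ 1 + (-132300) *
      c ^ 3 * x ^ 2 + (37800) * c ^ 3 * x ^ 3 + (-12150) * c ^ 4 * x ^ 0 + (37800) * c ^ 4 * x ^
      1 + (-18900) * c ^ 4 * x ^ 2 + (-4725) * c ^ 5 * x ^ 0 + (5400) * c ^ 5 * x ^ 1 + (-675) *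
      c ^ 6 * x ^ 0) * hc

end

end Vale.Agent.P296
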